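import Vale.Agent.P275JM.Core

/-! Ring form of Jacobson-Morozov: the weight projectors `pr k H N i` (polynomials in `H`). -/

namespace P275JM

open Polynomial

section Defs

variable (k : Type*) {R : Type*} [Field k] [Ring R] [Algebra k R]

/-- The polynomial of the weight projector. -/
noncomputable def prP (N : ℕ) (i : ℤ) : k[X] :=
  if i ∈ Finset.Ioo (-(N : ℤ)) N then
    Lagrange.basis (Finset.Ioo (-(N : ℤ)) N) (fun l : ℤ => (l : k)) i else 0

/-- The projector on the weight `i` part of `H`. -/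
noncomputable def pr (H : R) (N : ℕ) (i : ℤ) : R := aeval H (prP k N i)

/-- The projector on the weights at most `c`. -/
noncomputable def ple (H : R) (N : ℕ) (c : ℤ) : R :=
  ∑ i ∈ (Finset.Ioo (-(N : ℤ)) N).filter (· ≤ c), pr k H N i

/-- `H` is killed by `∏ (X - l)` over the integers `l` with `|l| < N`. -/
def Spec (H : R) (N : ℕ) : Prop :=
  aeval H (∏ l ∈ Finset.Ioo (-(N : ℤ)) N, (X - C (l : k))) = 0

end Defs

variable {k R : Type*} [Field k] [Ring R] [Algebra k R]

theorem Mor.map {R' F : Type*} [Ring R'] [FunLike F R R'] [RingHomClass F R R'] (φ : F)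
    {e D H : R} {N : ℕ} (h : Mor e D H N) : Mor (φ e) (φ D) (φ H) N where
  hD := by rw [← h.hD, map_sub, map_mul, map_mul]
  he := by rw [← map_mul, ← map_mul, ← map_sub, h.he, map_mul, map_ofNat]
  nil := by rw [← map_pow, h.nil, map_zero]

theorem Mor.mono {e D H : R} {N M : ℕ} (h : Mor e D H N) (hM : N ≤ M) : Mor e D H M :=
  ⟨h.hD, h.he, pow_eq_zero_of_le hM h.nil⟩

/-- Normalisation: from `[e, [e, D]] = c e` with `c ≠ 0`. -/
theorem Mor.of_bracket {e D : R} {c : k} (hc : c ≠ 0) {N : ℕ} (hN : e ^ N = 0)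
    (h : e * (e * D - D * e) - (e * D - D * e) * e = c • e) :
    Mor e ((-2 / c) • D) ((-2 / c) • (e * D - D * e)) N where
  hD := by rw [mul_smul_comm, smul_mul_assoc, smul_sub]
  he := by
    rw [mul_smul_comm, smul_mul_assoc, ← smul_sub, ← neg_sub, h, ← neg_smul, smul_smul]
    have : -2 / c * -c = 2 := by field_simp
    rw [this, two_smul, two_mul]
  nil := hN

theorem map_pr {R' F : Type*} [Ring R'] [Algebra k R'] [FunLike F R R'] [AlgHomClass F k R R']
    (φ : F) (H : R) (N : ℕ) (i : ℤ) : φ (pr k H N i) = pr k (φ H) N i :=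
  (aeval_algHom_apply φ H _).symm

theorem map_ple {R' F : Type*} [Ring R'] [Algebra k R'] [FunLike F R R'] [AlgHomClass F k R R']
    (φ : F) (H : R) (N : ℕ) (c : ℤ) : φ (ple k H N c) = ple k (φ H) N c := by
  simp only [ple, map_sum, map_pr]

theorem Spec.map {R' F : Type*} [Ring R'] [Algebra k R'] [FunLike F R R'] [AlgHomClass F k R R']
    (φ : F) {H : R} {N : ℕ} (h : Spec k H N) : Spec k (φ H) N := by
  unfold Spec at h ⊢
  rw [aeval_algHom_apply, h, map_zero]

theorem aeval_mem (S : Subalgebra k R) {H : R} (hH : H ∈ S) (p : k[X]) : aeval H p ∈ S := by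
  have := aeval_subalgebra_coe p S ⟨H, hH⟩
  rw [← this]; exact Subtype.property _

theorem pr_mem (S : Subalgebra k R) {H : R} (hH : H ∈ S) (N : ℕ) (i : ℤ) : pr k H N i ∈ S :=
  aeval_mem S hH _

theorem ple_mem (S : Subalgebra k R) {H : R} (hH : H ∈ S) (N : ℕ) (c : ℤ) : ple k H N c ∈ S :=
  S.sum_mem fun _ _ => pr_mem S hH N _

/-- Intertwiners of `H` and `H'` intertwine all polynomials. -/
theorem aeval_intertwine {x H H' : R} (hx : x * H = H' * x) (p : k[X]) :
    x * aeval H p = aeval H' p * x := by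
  induction p using Polynomial.induction_on' with
  | add p q hp hq => rw [map_add, map_add, mul_add, add_mul, hp, hq]
  | monomial n a =>
    have : SemiconjBy x (H ^ n) (H' ^ n) := SemiconjBy.pow_right hx n
    rw [aeval_monomial, aeval_monomial, ← mul_assoc, ← Algebra.commutes, mul_assoc, mul_assoc,
      this.eq]

theorem commute_pr {x H : R} (hx : Commute x H) (N : ℕ) (i : ℤ) : Commute x (pr k H N i) :=
  aeval_intertwine hx.eq _

theorem commute_ple {x H : R} (hx : Commute x H) (N : ℕ) (c : ℤ) : Commute x (ple k H N c) :=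
  Commute.sum_right _ _ _ fun _ _ => commute_pr hx N _

theorem pr_of_not_mem (H : R) {N : ℕ} {i : ℤ} (hi : (N : ℤ) ≤ |i|) : pr k H N i = 0 := by
  have : i ∉ Finset.Ioo (-(N : ℤ)) N := by
    rw [Finset.mem_Ioo, ← abs_lt]; omega
  simp [pr, prP, this]

/-- Linear intertwiners between two modules. -/
theorem aeval_intertwine_lin {V V' : Type*} [AddCommGroup V] [Module k V] [AddCommGroup V']
    [Module k V'] {T : V →ₗ[k] V'} {H : Module.End k V} {H' : Module.End k V'}
    (hT : ∀ v, T (H v) = H' (T v)) (p : k[X]) (v : V) : T (aeval H p v) = aeval H' p (T v) := by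
  induction p using Polynomial.induction_on' with
  | add p q hp hq => simp only [map_add, LinearMap.add_apply, hp, hq]
  | monomial n a =>
    have : ∀ v, T ((H ^ n) v) = (H' ^ n) (T v) := by
      induction n with
      | zero => simp
      | succ n ih => intro v; simp only [pow_succ, Module.End.mul_apply, ih, hT]
    simp only [aeval_monomial, Module.End.mul_apply, Module.algebraMap_end_apply, map_smul, this]

variable [CharZero k]

theorem Mor.spec {e D H : R} {N : ℕ} (h : Mor e D H N) : Spec k H N := by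
  have := (h.map (Algebra.lmul k R)).aeval_eq_zero_end
  rw [aeval_algHom_apply] at this
  exact (map_eq_zero_iff _ Algebra.lmul_injective).1 this

namespace Spec

variable {H : R} {N : ℕ} (h : Spec k H N)
include h

theorem sum_pr : ∑ i ∈ Finset.Ioo (-(N : ℤ)) N, pr k H N i = 1 := by
  rcases (Finset.Ioo (-(N : ℤ)) N).eq_empty_or_nonempty with he | he
  · unfold Spec at h
    rw [he] at h ⊢
    simpa using h.symm
  · have := Lagrange.sum_basis (F := k) (s := Finset.Ioo (-(N : ℤ)) N) (v := fun l : ℤ => (l : k))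
      (fun _ _ _ _ h => Int.cast_injective h) he
    rw [← map_one (aeval H : k[X] →ₐ[k] R), ← this, map_sum]
    exact Finset.sum_congr rfl fun i hi => by simp only [pr, prP, if_pos hi]

omit [CharZero k] in
theorem H_mul_pr (i : ℤ) : H * pr k H N i = (i : k) • pr k H N i := by
  unfold pr prP
  split_ifs with hi
  · have h1 : (X - C (i : k)) * Lagrange.basis (Finset.Ioo (-(N : ℤ)) N) (fun l : ℤ => (l : k)) i
        = C (Lagrange.nodalWeight (Finset.Ioo (-(N : ℤ)) N) (fun l : ℤ => (l : k)) i) *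
          ∏ l ∈ Finset.Ioo (-(N : ℤ)) N, (X - C (l : k)) := by
      rw [Lagrange.basis_eq_prod_sub_inv_mul_nodal_div hi, ← Lagrange.nodal_eq,
        ← Lagrange.nodal_erase_eq_nodal_div hi, Lagrange.nodal_eq_mul_nodal_erase hi]
      ring
    have h2 := congrArg (aeval H) h1
    unfold Spec at h
    rw [map_mul, map_mul, h, mul_zero, map_sub, aeval_X, aeval_C, sub_mul, sub_eq_zero] at h2
    rw [h2, Algebra.smul_def]
  · simp

omit [CharZero k] in
theorem pr_mul_H (i : ℤ) : pr k H N i * H = (i : k) • pr k H N i := by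
  rw [← h.H_mul_pr, (commute_pr (Commute.refl H) N i).eq]

section Mod

variable {V : Type*} [AddCommGroup V] [Module k V] [Module R V] [IsScalarTower k R V]

theorem pr_smul_of_ne {c i : ℤ} (hc : i ≠ c) {v : V} (hv : H • v = (c : k) • v) :
    pr k H N i • v = 0 := by
  have h1 : (i : k) • pr k H N i • v = (c : k) • pr k H N i • v := by
    rw [← smul_assoc, ← h.pr_mul_H, mul_smul, hv, smul_comm]
  rw [← sub_eq_zero, ← sub_smul, smul_eq_zero, sub_eq_zero] at h1
  exact h1.resolve_left fun h => hc (Int.cast_injective h)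

theorem pr_smul_self {c : ℤ} {v : V} (hv : H • v = (c : k) • v) : pr k H N c • v = v := by
  have h1 : v = ∑ i ∈ Finset.Ioo (-(N : ℤ)) N, pr k H N i • v := by
    rw [← Finset.sum_smul, h.sum_pr, one_smul]
  by_cases hc : c ∈ Finset.Ioo (-(N : ℤ)) N
  · rw [Finset.sum_eq_single_of_mem c hc fun i _ hi => h.pr_smul_of_ne hi hv] at h1
    exact h1.symm
  · rw [Finset.sum_eq_zero fun i hi => h.pr_smul_of_ne (by rintro rfl; exact hc hi) hv] at h1
    rw [h1, smul_zero]

omit [CharZero k] in
theorem H_smul_pr (i : ℤ) (v : V) : H • pr k H N i • v = (i : k) • pr k H N i • v := by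
  rw [← mul_smul, h.H_mul_pr, smul_assoc]

theorem sum_pr_smul (v : V) : ∑ i ∈ Finset.Ioo (-(N : ℤ)) N, pr k H N i • v = v := by
  rw [← Finset.sum_smul, h.sum_pr, one_smul]

theorem ple_smul_of_le {c l : ℤ} (hl : l ≤ c) {v : V} (hv : H • v = (l : k) • v) :
    ple k H N c • v = v := by
  rw [ple, Finset.sum_smul]
  by_cases hc : l ∈ Finset.Ioo (-(N : ℤ)) N
  · rw [Finset.sum_eq_single_of_mem l (Finset.mem_filter.2 ⟨hc, hl⟩)
      fun i _ hi => h.pr_smul_of_ne hi hv, h.pr_smul_self hv]
  · have : v = 0 := by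
      rw [← h.pr_smul_self hv, pr_of_not_mem, zero_smul]
      rw [Finset.mem_Ioo, ← abs_lt] at hc; omega
    simp [this]

theorem ple_smul_of_lt {c l : ℤ} (hl : c < l) {v : V} (hv : H • v = (l : k) • v) :
    ple k H N c • v = 0 := by
  rw [ple, Finset.sum_smul]
  refine Finset.sum_eq_zero fun i hi => h.pr_smul_of_ne ?_ hv
  have := (Finset.mem_filter.1 hi).2
  omega

end Mod

theorem pr_mul_of_ne {c i : ℤ} (hc : i ≠ c) {y : R} (hy : H * y = (c : k) • y) :
    pr k H N i * y = 0 := h.pr_smul_of_ne (V := R) hc hy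

theorem pr_mul_self {c : ℤ} {y : R} (hy : H * y = (c : k) • y) : pr k H N c * y = y :=
  h.pr_smul_self (V := R) hy

theorem pr_mul_pr_of_ne {i j : ℤ} (hij : i ≠ j) : pr k H N i * pr k H N j = 0 :=
  h.pr_mul_of_ne hij (h.H_mul_pr j)

theorem pr_mul_pr (i : ℤ) : pr k H N i * pr k H N i = pr k H N i :=
  h.pr_mul_self (h.H_mul_pr i)

/-- An element of `ad H`-weight `s` shifts the projectors by `s`. -/
theorem pr_shift {x : R} {s : ℤ} (hx : H * x - x * H = (s : k) • x) (i : ℤ) :
    pr k H N (i + s) * x = x * pr k H N i := by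
  have h1 : ∀ j : ℤ, H * (x * pr k H N j) = ((j + s : ℤ) : k) • (x * pr k H N j) := by
    intro j
    rw [← mul_assoc, eq_add_of_sub_eq hx, add_mul, mul_assoc, h.H_mul_pr, smul_mul_assoc,
      mul_smul_comm]
    push_cast; module
  have h2 : pr k H N (i + s) * x =
      ∑ j ∈ Finset.Ioo (-(N : ℤ)) N, pr k H N (i + s) * (x * pr k H N j) := by
    rw [← Finset.mul_sum, ← Finset.mul_sum, h.sum_pr, mul_one]
  rw [h2, Finset.sum_eq_single i (fun j _ hj => h.pr_mul_of_ne (by omega) (h1 j)),
    h.pr_mul_self (h1 i)]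
  intro hi
  rw [pr_of_not_mem (i := i), mul_zero, mul_zero]
  rw [Finset.mem_Ioo, ← abs_lt] at hi; omega

theorem ple_mul_pr_of_le {c i : ℤ} (hi : i ≤ c) : ple k H N c * pr k H N i = pr k H N i :=
  h.ple_smul_of_le (V := R) hi (h.H_mul_pr i)

theorem ple_mul_pr_of_lt {c i : ℤ} (hi : c < i) : ple k H N c * pr k H N i = 0 :=
  h.ple_smul_of_lt (V := R) hi (h.H_mul_pr i)

theorem ple_mul_ple (c : ℤ) : ple k H N c * ple k H N c = ple k H N c := by
  nth_rewrite 2 [ple]
  rw [Finset.mul_sum, Finset.sum_congr rfl fun i hi =>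
    h.ple_mul_pr_of_le (Finset.mem_filter.1 hi).2, ple]

theorem one_sub_ple (c : ℤ) :
    1 - ple k H N c = ∑ i ∈ (Finset.Ioo (-(N : ℤ)) N).filter (c < ·), pr k H N i := by
  rw [← h.sum_pr, ← Finset.sum_filter_add_sum_filter_not _ (· ≤ c), ple, add_sub_cancel_left]
  simp only [not_le]

end Spec

namespace Mor

variable {e D H : R} {N : ℕ} (h : Mor e D H N)
include h

theorem pr_mul_e (i : ℤ) : pr k H N (i + 2) * e = e * pr k H N i :=
  (h.spec (k := k)).pr_shift (by rw [h.he]; push_cast; rw [two_mul, two_smul]) i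

theorem pr_mul_pow (a : ℕ) (i : ℤ) : pr k H N (i + 2 * a) * e ^ a = e ^ a * pr k H N i := by
  induction a with
  | zero => simp
  | succ a ih =>
    rw [pow_succ', mul_assoc, ← ih, ← mul_assoc, ← mul_assoc, ← h.pr_mul_e]
    congr 3; push_cast; ring

section Mod

variable {V : Type*} [AddCommGroup V] [Module k V] [Module R V] [IsScalarTower k R V]

/-- Lefschetz injectivity on any module. -/
theorem inj_smul {j a : ℕ} (ha : a ≤ j) {v : V} (hv : H • v = -(j : k) • v)
    (h0 : e ^ a • v = 0) : v = 0 :=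
  (h.map (Algebra.lsmul k k V)).inj ha hv (by rw [← map_pow]; exact h0)

/-- Lefschetz surjectivity on any module. -/
theorem surj_smul (j : ℕ) {v : V} (hv : H • v = (j : k) • v) :
    ∃ w : V, H • w = -(j : k) • w ∧ e ^ j • w = v := by
  obtain ⟨w, hw, hw'⟩ := (h.map (Algebra.lsmul k k V)).surj j (v := v) hv
  exact ⟨w, hw, by rw [← map_pow] at hw'; exact hw'⟩

end Mod

/-- The inverse of `e ^ j` from weight `-j` to weight `j`. -/
theorem exists_inv (j : ℕ) : ∃ g : R, g * e ^ j = pr k H N (-j) ∧ e ^ j * g = pr k H N j ∧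
    pr k H N (-j) * g = g ∧ g * pr k H N j = g := by
  have hs := h.spec (k := k)
  obtain ⟨w, hw, hw'⟩ := h.surj_smul (k := k) (V := R) j (v := pr k H N j)
    (by simpa using hs.H_mul_pr j)
  rw [smul_eq_mul] at hw hw'
  have hc : pr k H N j * e ^ j = e ^ j * pr k H N (-j) := by
    rw [← h.pr_mul_pow]; congr 2; ring
  have hg : H * (w * pr k H N j) = ((-(j : ℤ) : ℤ) : k) • (w * pr k H N j) := by
    rw [← mul_assoc, hw, smul_mul_assoc]; push_cast; rfl
  refine ⟨w * pr k H N j, ?_, by rw [← mul_assoc, hw', hs.pr_mul_pr], hs.pr_mul_self hg,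
    by rw [mul_assoc, hs.pr_mul_pr]⟩
  rw [← sub_eq_zero]
  refine h.inj_smul (k := k) (V := R) (j := j) le_rfl ?_ ?_
  · rw [smul_eq_mul, mul_sub, ← mul_assoc, hg, hs.H_mul_pr, smul_mul_assoc, smul_sub]
    push_cast; rfl
  · rw [smul_eq_mul, mul_sub, ← mul_assoc, ← mul_assoc, hw', hs.pr_mul_pr, hc, sub_self]

end Mor

end P275JM
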