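import Vale.Agent.P275JM.Split
import Vale.Agent.P275S.Defs

/-! Chain level splitting of a homotopy idempotent of a bounded below complex of injectives with
bounded cohomology, and the local vanishing of the two summands. -/

namespace P275JM

open CategoryTheory Category Limits Pretriangulated Preadditive DerivedCategory P275S
open TopologicalSpace

universe w v u

section Gen

variable {C : Type u} [Category.{v} C] [Abelian C] [HasDerivedCategory.{w} C]

omit [HasDerivedCategory.{w} C] in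
theorem kinj {L : CochainComplex C ℤ} (hL : InjC L) : L.IsKInjective := by
  obtain ⟨⟨a, ha⟩, h⟩ := hL
  exact CochainComplex.isKInjective_of_injective L a

/-- Morphisms of the derived category into a bounded below complex of injectives are chain maps. -/
theorem Q_surj {K L : CochainComplex C ℤ} (hL : InjC L) (φ : Q.obj K ⟶ Q.obj L) :
    ∃ f : K ⟶ L, Q.map f = φ := by
  have := kinj hL
  obtain ⟨g, hg⟩ := (CochainComplex.IsKInjective.Qh_map_bijective
    ((HomotopyCategory.quotient _ _).obj K) L).surjective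
    ((quotientCompQhIso C).hom.app K ≫ φ ≫ (quotientCompQhIso C).inv.app L)
  obtain ⟨f, rfl⟩ := (HomotopyCategory.quotient _ _).map_surjective g
  refine ⟨f, ?_⟩
  rw [← cancel_epi ((quotientCompQhIso C).hom.app K), ← quotientCompQhIso_hom_naturality, hg]
  simp

/-- Chain maps into a bounded below complex of injectives with the same class are homotopic. -/
theorem Q_inj {K L : CochainComplex C ℤ} (hL : InjC L) {f g : K ⟶ L} (h : Q.map f = Q.map g) :
    Nonempty (Homotopy f g) := by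
  have := kinj hL
  refine ⟨HomotopyCategory.homotopyOfEq _ _ ((CochainComplex.IsKInjective.Qh_map_bijective
    ((HomotopyCategory.quotient _ _).obj K) L).injective ?_)⟩
  rw [← cancel_mono ((quotientCompQhIso C).hom.app L), quotientCompQhIso_hom_naturality,
    quotientCompQhIso_hom_naturality, h]

theorem exists_injC [EnoughInjectives C] (A : DerivedCategory C) (a : ℤ) [A.IsGE a] :
    ∃ J : CochainComplex C ℤ, InjC J ∧ Nonempty (A ≅ Q.obj J) := by
  obtain ⟨K, _, ⟨e⟩⟩ := exists_iso_Q_obj_of_isGE A a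
  obtain ⟨L, i, _, hL, hL'⟩ :=
    CochainComplex.Plus.modelCategoryQuillen.exists_quasiIso_injective K a
  exact ⟨L, ⟨⟨a, hL'⟩, hL⟩, ⟨e ≪≫ asIso (Q.map i)⟩⟩

theorem isGE_of_retract {A K : DerivedCategory C} {i : A ⟶ K} {r : K ⟶ A} (h : i ≫ r = 𝟙 A)
    (a : ℤ) [K.IsGE a] : A.IsGE a := by
  rw [isGE_iff]
  intro n hn
  rw [IsZero.iff_id_eq_zero, ← CategoryTheory.Functor.map_id, ← h, Functor.map_comp,
    (isZero_of_isGE K a n hn).eq_of_tgt ((homologyFunctor C n).map i) 0, zero_comp]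

/-- Chain level splitting of a homotopy idempotent. -/
theorem exists_splitC [EnoughInjectives C] {J : CochainComplex C ℤ} (hJ : InjC J) (b : ℤ)
    [J.IsLE b] (p : J ⟶ J) (hp : Homotopy (p ≫ p) p) :
    ∃ (A B : CochainComplex C ℤ) (i : A ⟶ J) (r : J ⟶ A) (j : B ⟶ J) (s : J ⟶ B),
      InjC A ∧ InjC B ∧ Nonempty (Homotopy (i ≫ r) (𝟙 A)) ∧ Nonempty (Homotopy (j ≫ s) (𝟙 B)) ∧
      Nonempty (Homotopy (r ≫ i) p) ∧ Nonempty (Homotopy (s ≫ j) (𝟙 J - p)) ∧
      Triangle.mk (Q.map i) (Q.map s) 0 ∈ distTriang (DerivedCategory C) := by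
  obtain ⟨a, ha⟩ := hJ.1
  obtain ⟨A, B, i, r, j, s, h₁, h₂, h₃, h₄, -⟩ := exists_split (Q.obj J) a b (Q.map p)
    (by rw [← Functor.map_comp, Q_map_eq_of_homotopy _ hp])
  have := isGE_of_retract h₁ a
  have := isGE_of_retract h₂ a
  obtain ⟨A', hA, ⟨eA⟩⟩ := exists_injC A a
  obtain ⟨B', hB, ⟨eB⟩⟩ := exists_injC B a
  obtain ⟨i', hi⟩ := Q_surj hJ (eA.inv ≫ i)
  obtain ⟨j', hj⟩ := Q_surj hJ (eB.inv ≫ j)
  obtain ⟨r', hr⟩ := Q_surj hA (r ≫ eA.hom)
  obtain ⟨s', hs⟩ := Q_surj hB (s ≫ eB.hom)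
  have e₁ : Q.map i' ≫ Q.map r' = 𝟙 _ := by simp [hi, hr, reassoc_of% h₁]
  have e₂ : Q.map j' ≫ Q.map s' = 𝟙 _ := by simp [hj, hs, reassoc_of% h₂]
  have e₃ : Q.map r' ≫ Q.map i' = Q.map p := by simp [hi, hr, h₃]
  have e₄ : Q.map s' ≫ Q.map j' = 𝟙 _ - Q.map p := by simp [hj, hs, h₄]
  refine ⟨A', B', i', r', j', s', hA, hB, Q_inj hA (by simpa using e₁),
    Q_inj hB (by simpa using e₂), Q_inj hJ (by simpa using e₃), Q_inj hJ (by simpa using e₄),
    split_distinguished e₁ e₂ (by rw [e₃, e₄]; abel)⟩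

end Gen

end P275JM
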