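import Vale.Agent.P275JM.Kil

/-! Jacobson-Morozov without finite dimensionality: if `H = [e, D]`, `[H, e] = 2 e` and `e` is
nilpotent then `H` is diagonalisable with integer eigenvalues and `e ^ j` is a bijection from the
eigenspace of weight `-j` onto the eigenspace of weight `j`. -/

namespace P275JM

/-- The data of Morozov's lemma in a ring. -/
structure Mor {R : Type*} [Ring R] (e D H : R) (N : ℕ) : Prop where
  hD : e * D - D * e = H
  he : H * e - e * H = 2 * e
  nil : e ^ N = 0

variable {k V : Type*} [Field k] [AddCommGroup V] [Module k V]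

section Ident

variable {e D H : Module.End k V}

theorem H_pow (he : ∀ v, H (e v) = e (H v) + (2 : k) • e v) (a : ℕ) (v : V) :
    H ((e ^ a) v) = (e ^ a) (H v) + ((2 * a : ℤ) : k) • (e ^ a) v := by
  induction a with
  | zero => simp
  | succ a ih =>
    simp only [pow_succ', Module.End.mul_apply]
    rw [he, ih, map_add, map_smul]; push_cast; module

theorem pow_D (hD : ∀ v, e (D v) = D (e v) + H v) (he : ∀ v, H (e v) = e (H v) + (2 : k) • e v)
    (a : ℕ) (v : V) : (e ^ (a + 1)) (D v) = D ((e ^ (a + 1)) v) +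
      ((a : k) + 1) • (e ^ a) (H v + (a : k) • v) := by
  induction a with
  | zero => simpa using hD v
  | succ a ih =>
    have h1 : ∀ (b : ℕ) (w : V), (e ^ (b + 1)) w = e ((e ^ b) w) := by
      intro b w; rw [pow_succ', Module.End.mul_apply]
    rw [h1 (a + 1) (D v), ih, map_add, hD, map_smul, ← h1, ← h1, H_pow he (a + 1)]
    simp only [map_add, map_smul]; push_cast; module

end Ident

namespace Mor

variable {e D H : Module.End k V} {N : ℕ} (h : Mor e D H N)
include h

theorem hD' (v : V) : e (D v) = D (e v) + H v := by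
  have := congrArg (fun f : Module.End k V => f v) h.hD
  simp only [LinearMap.sub_apply, Module.End.mul_apply] at this
  rw [← this]; abel

theorem he' (v : V) : H (e v) = e (H v) + (2 : k) • e v := by
  have := congrArg (fun f : Module.End k V => f v) h.he
  simp only [LinearMap.sub_apply, Module.End.mul_apply, two_mul, LinearMap.add_apply] at this
  rw [two_smul, ← this]; abel

theorem pow_zero_of_le {a : ℕ} (ha : N ≤ a) (v : V) : (e ^ a) v = 0 := by
  obtain ⟨b, rfl⟩ := Nat.exists_eq_add_of_le ha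
  rw [add_comm, pow_add, h.nil]; simp

theorem kil_pow {S T : Set ℤ} (a : ℕ) (hST : ∀ c ∈ S, c + 2 * a ∈ T) {v : V} (hv : Kil H S v) :
    Kil H T ((e ^ a) v) :=
  hv.map (e ^ a) (2 * a) (H_pow h.he' a) hST

variable [CharZero k]

/-- `ker e ∩ im e ^ i` has weights at least `i`. -/
theorem kil_ker (i : ℕ) (w : V) (hw : (e ^ (i + 1)) w = 0) :
    Kil H {c | (i : ℤ) ≤ c} ((e ^ i) w) := by
  by_cases hi : N ≤ i
  · rw [h.pow_zero_of_le hi]; exact Kil.zero
  · refine Kil.step i _ (by simp) ?_
    have hne : ((i : k) + 1) ≠ 0 := by exact_mod_cast Nat.succ_ne_zero i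
    have h1 := pow_D h.hD' h.he' i w
    rw [hw, map_zero, zero_add] at h1
    have h2 : H ((e ^ i) w) - ((i : ℤ) : k) • (e ^ i) w =
        ((i : k) + 1)⁻¹ • (e ^ (i + 1)) (D w) := by
      rw [h1, smul_smul, inv_mul_cancel₀ hne, one_smul, H_pow h.he', map_add, map_smul]
      push_cast; module
    rw [h2]
    refine ((kil_ker (i + 1) (D w) ?_).mono ?_).smul _
    · have h3 : (e ^ (i + 1 + 1)) w = 0 := by
        rw [pow_succ', Module.End.mul_apply, hw, map_zero]
      have h4 := H_pow h.he' (i + 1) w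
      rw [hw, map_zero, smul_zero, add_zero] at h4
      rw [pow_D h.hD' h.he' (i + 1) w, h3, map_add, map_smul, ← h4, hw]; simp
    · intro c hc
      simp only [Set.mem_ofPred_eq] at hc ⊢
      push_cast at hc; omega
termination_by N - i
decreasing_by omega

theorem kil_of_map {v : V} (hv : Kil H Set.univ (e v)) : Kil H Set.univ v := by
  generalize hu : e v = u at hv
  induction hv generalizing v with
  | zero =>
    have := h.kil_ker 0 v (by simpa using hu)
    simpa using this.mono (Set.subset_univ _)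
  | step c u _ _ ih =>
    refine Kil.step (c - 2) v trivial (ih ?_)
    rw [← hu, h.he', map_sub, map_smul]; push_cast; module

theorem kil_univ (v : V) : Kil H Set.univ v := by
  have : ∀ a : ℕ, ∀ v, (e ^ a) v = 0 → Kil H Set.univ v := by
    intro a
    induction a with
    | zero => intro v hv; simp only [pow_zero, Module.End.one_apply] at hv; rw [hv]; exact Kil.zero
    | succ a ih =>
      intro v hv
      exact h.kil_of_map (ih _ (by rw [← Module.End.mul_apply, ← pow_succ]; exact hv))
  exact this N v (h.pow_zero_of_le le_rfl v)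

/-- Injectivity of powers of `e` in negative weights. -/
theorem inj_kil (j a : ℕ) (ha : a ≤ j) {v : V} (hv : Kil H {c | c ≤ -(j : ℤ)} v)
    (h0 : (e ^ a) v = 0) : v = 0 := by
  induction a with
  | zero => simpa using h0
  | succ a ih =>
    refine ih (by omega) ((h.kil_ker a v h0).eq_zero (T := {c | c ≤ -(j : ℤ) + 2 * a}) ?_
      (h.kil_pow a ?_ hv))
    · intro c hc hc'
      simp only [Set.mem_ofPred_eq] at hc hc'
      omega
    · intro c hc
      simp only [Set.mem_ofPred_eq] at hc ⊢
      omega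

theorem mem_ker_sup (i : ℕ) {v : V} (hv : Kil H {c | -(i : ℤ) < c} v) :
    v ∈ LinearMap.ker (e ^ i) ⊔ LinearMap.range e := by
  by_cases hi : N ≤ i
  · exact Submodule.mem_sup_left (by simpa using h.pow_zero_of_le hi v)
  · have ih := mem_ker_sup (i + 1) (v := v) (hv.mono (by
      intro c hc
      simp only [Set.mem_ofPred_eq] at hc ⊢
      push_cast; omega))
    have hne : ((i : k) + 1) ≠ 0 := by exact_mod_cast Nat.succ_ne_zero i
    have hr : ∀ y, H (e y) ∈ LinearMap.range e := by
      intro y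
      exact ⟨H y + (2 : k) • y, by rw [h.he', map_add, map_smul]⟩
    refine hv.mem_of_sub_mem _ ?_ (c := -(i : ℤ)) (by simp) ?_
    · intro u hu
      obtain ⟨x, hx, _, ⟨y, rfl⟩, rfl⟩ := Submodule.mem_sup.1 hu
      rw [map_add]
      refine Submodule.add_mem_sup ?_ (hr y)
      have h4 := H_pow h.he' i x
      rw [LinearMap.mem_ker] at hx ⊢
      rw [hx, map_zero, smul_zero, add_zero] at h4
      exact h4.symm
    · obtain ⟨x, hx, _, ⟨y, rfl⟩, rfl⟩ := Submodule.mem_sup.1 ih
      rw [LinearMap.mem_ker] at hx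
      have h1 := pow_D h.hD' h.he' i x
      rw [hx, map_zero, zero_add] at h1
      have e1 : H (x + e y) - ((-(i : ℤ) : ℤ) : k) • (x + e y) =
          (H x + (i : k) • x - ((i : k) + 1)⁻¹ • e (D x)) +
            (((i : k) + 1)⁻¹ • e (D x) + H (e y) + (i : k) • e y) := by
        rw [map_add]; push_cast; module
      rw [e1]
      refine Submodule.add_mem_sup ?_ (Submodule.add_mem _ (Submodule.add_mem _
        (Submodule.smul_mem _ _ ⟨_, rfl⟩) (hr y)) (Submodule.smul_mem _ _ ⟨_, rfl⟩))
      rw [LinearMap.mem_ker, map_sub, map_smul, ← Module.End.mul_apply (e ^ i) e, ← pow_succ, h1,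
        smul_smul, inv_mul_cancel₀ hne, one_smul, sub_self]
termination_by N - i
decreasing_by omega

/-- A preimage under `e ^ a` can be taken in the expected generalised weight. -/
theorem exists_comp (a : ℕ) (l : ℤ) {v w : V} (hv : Kil H {l} v) (hw : (e ^ a) w = v) :
    ∃ w', Kil H {l - 2 * a} w' ∧ (e ^ a) w' = v := by
  obtain ⟨w₁, w₂, h₁, h₂, e'⟩ := (h.kil_univ w).split {l - 2 * a}
  rw [Set.univ_inter] at h₁
  refine ⟨w₁, h₁, ?_⟩
  have h3 : (e ^ a) w₂ = v - (e ^ a) w₁ := by rw [← hw, e', map_add]; abel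
  have h4 : Kil H {l} ((e ^ a) w₂) := by
    rw [h3]; exact hv.sub (h.kil_pow a (by simp) h₁)
  have h5 : Kil H {c | c ≠ l} ((e ^ a) w₂) := by
    refine h.kil_pow a ?_ h₂
    intro c hc hc'
    apply hc.2
    simp only [Set.mem_singleton_iff]
    omega
  have := h4.eq_zero (by simp) h5
  rw [h3] at this
  exact (sub_eq_zero.1 this).symm

/-- Surjectivity of powers of `e` in positive weights. -/
theorem surj_kil (j a : ℕ) (ha : a ≤ j) {v : V} (hv : Kil H {(j : ℤ)} v) :
    ∃ w, Kil H {(j : ℤ) - 2 * a} w ∧ (e ^ a) w = v := by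
  induction a with
  | zero => exact ⟨v, by simpa using hv, by simp⟩
  | succ a ih =>
    obtain ⟨w, hw, hw'⟩ := ih (by omega)
    have := h.mem_ker_sup a (v := w) (hw.mono (by
      intro c hc
      simp only [Set.mem_ofPred_eq, Set.mem_singleton_iff] at hc ⊢
      omega))
    obtain ⟨x, hx, _, ⟨y, rfl⟩, rfl⟩ := Submodule.mem_sup.1 this
    rw [LinearMap.mem_ker] at hx
    refine h.exists_comp (a + 1) j (w := y) hv ?_
    rw [← hw', map_add, hx, zero_add, pow_succ, Module.End.mul_apply]

theorem eig_neg (j : ℕ) {v : V} (hv : Kil H {-(j : ℤ)} v) : H v = ((-(j : ℤ) : ℤ) : k) • v := by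
  have hle : ∀ {u : V}, Kil H {-(j : ℤ)} u → Kil H {c | c ≤ -(j : ℤ)} u := fun hu =>
    hu.mono (by intro c hc; simp only [Set.mem_ofPred_eq, Set.mem_singleton_iff] at hc ⊢; omega)
  by_cases hj : N ≤ j
  · rw [h.inj_kil j j le_rfl (hle hv) (h.pow_zero_of_le hj v)]; simp
  · have h1 : Kil H {((j + 2 : ℕ) : ℤ)} ((e ^ (j + 1)) v) :=
      h.kil_pow (j + 1) (by simp; ring) hv
    obtain ⟨w, hw, hw'⟩ := h.surj_kil (j + 2) (j + 2) le_rfl h1
    have hw2 : Kil H {-((j + 2 : ℕ) : ℤ)} w := by
      convert hw using 2; ring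
    have ih := eig_neg (j + 2) hw2
    have hew : Kil H {-(j : ℤ)} (e w) := by
      have := h.kil_pow (T := {-(j : ℤ)}) 1 (by simp) hw2
      simpa using this
    have hHe : H (e w) = ((-(j : ℤ) : ℤ) : k) • e w := by
      rw [h.he', ih, map_smul]; push_cast; module
    have hp : (e ^ (j + 1)) (v - e w) = 0 := by
      rw [map_sub, ← hw', ← Module.End.mul_apply (e ^ (j + 1)) e, ← pow_succ, sub_self]
    have hu := hv.sub hew
    generalize hx : v - e w = x at hp hu
    have hne : ((j : k) + 1) ≠ 0 := by exact_mod_cast Nat.succ_ne_zero j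
    have hy : Kil H {-(j : ℤ)} (H x + (j : k) • x) := hu.app.add (hu.smul _)
    have h2 := pow_D h.hD' h.he' j x
    rw [hp, map_zero, zero_add] at h2
    have h3 : (e ^ (j + 1 + 1)) (D x) = 0 := by
      have h3 : (e ^ (j + 1 + 1)) x = 0 := by
        rw [pow_succ', Module.End.mul_apply, hp, map_zero]
      have h4 := H_pow h.he' (j + 1) x
      rw [hp, map_zero, smul_zero, add_zero] at h4
      rw [pow_D h.hD' h.he' (j + 1) x, h3, map_add, map_smul, ← h4, hp]; simp
    have h4 := h.kil_ker (j + 1) (D x) h3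
    have h5 : (e ^ (j + 1)) (D x) = 0 := by
      refine h4.eq_zero (T := {(j : ℤ)}) (by simp; intro c hc; omega) ?_
      rw [h2]
      exact (h.kil_pow j (by simp; ring) hy).smul _
    rw [h2, smul_eq_zero, or_iff_right hne] at h5
    have h6 := h.inj_kil j j le_rfl (hle hy) h5
    have hv' : v = x + e w := by rw [← hx]; abel
    rw [hv', map_add, hHe, eq_neg_of_add_eq_zero_left h6]; push_cast; module
termination_by N - j
decreasing_by omega

/-- Generalised eigenvectors of `H` are eigenvectors. -/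
theorem eig (l : ℤ) {v : V} (hv : Kil H {l} v) : H v = (l : k) • v := by
  obtain ⟨j, rfl | rfl⟩ := l.eq_nat_or_neg
  · obtain ⟨w, hw, rfl⟩ := h.surj_kil j j le_rfl hv
    have hw2 : Kil H {-(j : ℤ)} w := by convert hw using 2; ring
    rw [H_pow h.he', h.eig_neg j hw2, map_smul]; push_cast; module
  · exact h.eig_neg j hv

/-- Lefschetz, injectivity: a vector of weight `-j` killed by `e ^ a`, `a ≤ j`, is zero. -/
theorem inj {j a : ℕ} (ha : a ≤ j) {v : V} (hv : H v = -(j : k) • v) (h0 : (e ^ a) v = 0) :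
    v = 0 :=
  h.inj_kil j a ha (Kil.of_eig (c := -(j : ℤ)) (by simp) (by simpa using hv)) h0

/-- Lefschetz, surjectivity: a vector of weight `j` is `e ^ j` of a vector of weight `-j`. -/
theorem surj (j : ℕ) {v : V} (hv : H v = (j : k) • v) :
    ∃ w, H w = -(j : k) • w ∧ (e ^ j) w = v := by
  obtain ⟨w, hw, hw'⟩ := h.surj_kil j j le_rfl (v := v)
    (Kil.of_eig (c := (j : ℤ)) (by simp) (by simpa using hv))
  have hw2 : Kil H {-(j : ℤ)} w := by convert hw using 2; ring
  exact ⟨w, by simpa using h.eig_neg j hw2, hw'⟩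

theorem eig_zero_of_le {l : ℤ} (hl : (N : ℤ) ≤ |l|) {v : V} (hv : H v = (l : k) • v) : v = 0 := by
  obtain ⟨j, rfl | rfl⟩ := l.eq_nat_or_neg
  · obtain ⟨w, -, rfl⟩ := h.surj j (v := v) (by simpa using hv)
    exact h.pow_zero_of_le (by simpa using hl) w
  · exact h.inj le_rfl (j := j) (by simpa using hv) (h.pow_zero_of_le (by simpa using hl) v)

theorem kil_Ioo (v : V) : Kil H (Set.Ioo (-(N : ℤ)) N) v := by
  obtain ⟨v₁, v₂, h₁, h₂, rfl⟩ := (h.kil_univ v).split (Set.Ioo (-(N : ℤ)) N)
  have : v₂ = 0 := by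
    clear h₁
    induction h₂ with
    | zero => rfl
    | step c v hc _ ih =>
      refine h.eig_zero_of_le (l := c) ?_ (sub_eq_zero.1 ih)
      have := hc.2
      simp only [Set.mem_Ioo, not_and_or, not_lt] at this
      rcases this with h1 | h1
      · exact le_abs.2 (Or.inr (by omega))
      · exact le_abs.2 (Or.inl h1)
  rw [this, add_zero]; simpa using h₁

open Polynomial in
theorem aeval_kil (s : Finset ℤ) {v : V} (hv : Kil H s v) :
    aeval H (∏ l ∈ s, (X - C (l : k))) v = 0 := by
  induction s using Finset.induction_on generalizing v with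
  | empty =>
    have := hv.eq_zero (T := ∅) (by simp) (by simpa using hv)
    simp [this]
  | insert c s hc ih =>
    obtain ⟨v₁, v₂, h₁, h₂, rfl⟩ := hv.split {c}
    have e₁ := h.eig c (h₁.mono Set.inter_subset_right)
    have e₂ := ih (v := v₂) (h₂.mono (by
      intro x hx
      have h1 := hx.1
      have h2 := hx.2
      simp_all))
    rw [map_add, Finset.prod_insert hc]
    nth_rewrite 1 [mul_comm]
    simp only [map_mul, Module.End.mul_apply, e₂, map_zero, add_zero]
    have : aeval H (X - C (c : k)) v₁ = 0 := by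
      rw [map_sub, aeval_X, aeval_C, LinearMap.sub_apply, e₁, Module.algebraMap_end_apply, sub_self]
    rw [this, map_zero]

open Polynomial in
/-- `H` is killed by `∏ (X - l)` over the integers `l` with `|l| < N`. -/
theorem aeval_eq_zero_end :
    aeval H (∏ l ∈ Finset.Ioo (-(N : ℤ)) N, (X - C (l : k))) = 0 := by
  ext v
  exact h.aeval_kil _ (by simpa using h.kil_Ioo v)

end Mor

end P275JM
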