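import Vale.Agent.P275JM.Ring

/-! Filtered form: a filtration raised by `e`, lowered by `D` and with the Lefschetz property on
the graded pieces is the weight filtration of `H = [e, D]`. -/

namespace P275JM

variable {k V : Type*} [Field k] [AddCommGroup V] [Module k V]

/-- A bounded filtration with the Lefschetz property for `e` centred at `r`. -/
structure Lef (e : Module.End k V) (r : ℤ) (F : ℤ → Submodule k V) : Prop where
  mono : Monotone F
  bot : ∃ a, F a = ⊥
  top : ∀ v, ∃ a, v ∈ F a
  up : ∀ a, ∀ v ∈ F a, e v ∈ F (a + 2)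
  inj : ∀ j : ℕ, ∀ v ∈ F (r - j), (e ^ j) v ∈ F (r + j - 1) → v ∈ F (r - j - 1)
  surj : ∀ j : ℕ, ∀ v ∈ F (r + j), ∃ w ∈ F (r - j), v - (e ^ j) w ∈ F (r + j - 1)

namespace Lef

variable {e D H : Module.End k V} {N : ℕ} {r : ℤ} {F : ℤ → Submodule k V} (hF : Lef e r F)
include hF

theorem cast {a b : ℤ} {v : V} (hv : v ∈ F a) (hab : a ≤ b) : v ∈ F b := hF.mono hab hv

theorem up_pow (j : ℕ) {a : ℤ} {v : V} (hv : v ∈ F a) : (e ^ j) v ∈ F (a + 2 * j) := by
  induction j with
  | zero => simpa using hv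
  | succ j ih =>
    rw [pow_succ', Module.End.mul_apply]
    exact hF.cast (hF.up _ _ ih) (by push_cast; omega)

variable (h : Mor e D H N) (hD : ∀ a, ∀ v ∈ F a, D v ∈ F (a - 2))
include h hD

theorem H_mem {a : ℤ} {v : V} (hv : v ∈ F a) : H v ∈ F a := by
  rw [eq_sub_of_add_eq' (h.hD' v).symm]
  exact Submodule.sub_mem _ (hF.cast (hF.up _ _ (hD _ _ hv)) (by omega))
    (hF.cast (hD _ _ (hF.up _ _ hv)) (by omega))

variable [CharZero k]

theorem prim (j : ℕ) {v : V} (hv : v ∈ F (r - j)) (hp : (e ^ (j + 1)) v ∈ F (r + j + 1)) :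
    H v + (j : k) • v ∈ F (r - j - 1) := by
  have hne : ((j : k) + 1) ≠ 0 := by exact_mod_cast Nat.succ_ne_zero j
  have h1 : D v ∈ F (r - j - 3) := by
    have := hF.inj (j + 2) (D v) (hF.cast (hD _ _ hv) (by push_cast; omega)) (by
      have h4 := H_pow h.he' (j + 1) v
      rw [pow_D h.hD' h.he' (j + 1) v, map_add, map_smul, eq_sub_of_add_eq h4.symm]
      have hp' : (e ^ (j + 1)) v ∈ F (r + (j + 2 : ℕ) - 1) := hF.cast hp (by push_cast; omega)
      refine Submodule.add_mem _ ?_ (Submodule.smul_mem _ _ (Submodule.add_mem _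
        (Submodule.sub_mem _ (hF.H_mem h hD hp') (Submodule.smul_mem _ _ hp'))
        (Submodule.smul_mem _ _ hp')))
      rw [pow_succ', Module.End.mul_apply]
      exact hF.cast (hD _ _ (hF.up _ _ hp)) (by push_cast; omega))
    exact hF.cast this (by push_cast; omega)
  refine hF.inj j _ (Submodule.add_mem _ (hF.H_mem h hD hv) (Submodule.smul_mem _ _ hv)) ?_
  have h2 := pow_D h.hD' h.he' j v
  have h3 : (e ^ j) (H v + (j : k) • v) =
      ((j : k) + 1)⁻¹ • ((e ^ (j + 1)) (D v) - D ((e ^ (j + 1)) v)) := by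
    rw [h2, add_sub_cancel_left, smul_smul, inv_mul_cancel₀ hne, one_smul]
  rw [h3]
  exact Submodule.smul_mem _ _ (Submodule.sub_mem _
    (hF.cast (hF.up_pow _ h1) (by push_cast; omega)) (hF.cast (hD _ _ hp) (by omega)))

theorem neg_aux (n : ℕ) {a : ℤ} (ha : F a = ⊥) (j : ℕ) (hj : r - j - n ≤ a) {v : V}
    (hv : v ∈ F (r - j)) : H v + (j : k) • v ∈ F (r - j - 1) := by
  induction n generalizing j v with
  | zero =>
    have := hF.cast hv (b := a) (by simpa using hj)
    rw [ha, Submodule.mem_bot] at this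
    simp [this]
  | succ n ih =>
    obtain ⟨w, hw, hw'⟩ := hF.surj (j + 2) ((e ^ (j + 1)) v)
      (hF.cast (hF.up_pow _ hv) (by push_cast; omega))
    have h1 := hF.up _ _ (ih (j + 2) (by push_cast at hj ⊢; omega) hw)
    have h2 := hF.prim h hD j (v := v - e w)
      (Submodule.sub_mem _ hv (hF.cast (hF.up _ _ hw) (by push_cast; omega))) (by
        rw [map_sub, ← Module.End.mul_apply (e ^ (j + 1)) e, ← pow_succ]
        exact hF.cast hw' (by push_cast; omega))
    have h3 : H v + (j : k) • v =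
        (H (v - e w) + (j : k) • (v - e w)) + e (H w + ((j + 2 : ℕ) : k) • w) := by
      rw [map_sub, map_add, map_smul, h.he']; push_cast; module
    rw [h3]
    exact Submodule.add_mem _ h2 (hF.cast h1 (by push_cast; omega))

/-- `H` acts as `l` on the graded piece of index `r + l`. -/
theorem sub_mem (l : ℤ) {v : V} (hv : v ∈ F (r + l)) : H v - (l : k) • v ∈ F (r + l - 1) := by
  have hneg : ∀ j : ℕ, ∀ v ∈ F (r - j), H v + (j : k) • v ∈ F (r - j - 1) := by
    obtain ⟨a, ha⟩ := hF.bot
    intro j v hv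
    exact hF.neg_aux h hD (r - j - a).toNat ha j (by omega) hv
  obtain ⟨j, rfl | rfl⟩ := l.eq_nat_or_neg
  · obtain ⟨w, hw, hw'⟩ := hF.surj j v hv
    have h1 := hF.up_pow j (hneg j w hw)
    have h3 : H v - ((j : ℤ) : k) • v = (H (v - (e ^ j) w) - (j : k) • (v - (e ^ j) w)) +
        (e ^ j) (H w + (j : k) • w) := by
      rw [map_sub, map_add, map_smul, H_pow h.he']; push_cast; module
    rw [h3]
    exact Submodule.add_mem _ (Submodule.sub_mem _ (hF.H_mem h hD hw') (Submodule.smul_mem _ _ hw'))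
      (hF.cast h1 (by omega))
  · have := hneg j v (by simpa [sub_eq_add_neg] using hv)
    simpa [sub_eq_add_neg] using this

theorem mem_of_eig {c : ℤ} {v : V} (hv : H v = (c : k) • v) : v ∈ F (r + c) := by
  have : ∀ n : ℕ, v ∈ F (r + (c + n)) → v ∈ F (r + c) := by
    intro n
    induction n with
    | zero => simp
    | succ n ih =>
      intro h1
      have h2 := hF.sub_mem h hD _ h1
      have hne : -((n : k) + 1) ≠ 0 := neg_ne_zero.2 (by exact_mod_cast Nat.succ_ne_zero n)
      have h3 : H v - ((c + (n + 1 : ℕ) : ℤ) : k) • v = (-((n : k) + 1)) • v := by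
        rw [hv]; push_cast; module
      rw [h3, Submodule.smul_mem_iff _ hne] at h2
      exact ih (hF.cast h2 (by push_cast; omega))
  obtain ⟨a, ha⟩ := hF.top v
  exact this (a - r - c).toNat (hF.cast ha (by omega))

theorem kil_of_mem (l : ℤ) {v : V} (hv : v ∈ F (r + l)) : Kil H {c | c ≤ l} v := by
  obtain ⟨a, ha⟩ := hF.bot
  have : ∀ n : ℕ, ∀ l : ℤ, r + l - n ≤ a → ∀ v ∈ F (r + l), Kil H {c | c ≤ l} v := by
    intro n
    induction n with
    | zero =>
      intro l hl v hv
      have := hF.cast hv (b := a) (by simpa using hl)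
      rw [ha, Submodule.mem_bot] at this
      rw [this]; exact Kil.zero
    | succ n ih =>
      intro l hl v hv
      refine Kil.step l v (by simp) ((ih (l - 1) (by push_cast at hl; omega) _
        (hF.cast (hF.sub_mem h hD l hv) (by omega))).mono ?_)
      intro c hc
      simp only [Set.mem_ofPred_eq] at hc ⊢
      omega
  exact this (r + l - a).toNat l (by omega) v hv

/-- The filtration is the weight filtration of `H`. -/
theorem mem_iff (l : ℤ) (v : V) : v ∈ F (r + l) ↔ ple k H N l v = v := by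
  have hs := h.spec (k := k)
  constructor
  · intro hv
    have h1 := hF.kil_of_mem h hD l hv
    have h2 : (1 - ple k H N l) v = 0 := by
      rw [hs.one_sub_ple, LinearMap.sum_apply]
      refine Finset.sum_eq_zero fun i hi => ?_
      have hi' := (Finset.mem_filter.1 hi).2
      refine (h1.map (T := {c | c ≤ l}) (pr k H N i) 0 ?_ (by simp)).eq_zero (T := {i}) ?_
        (Kil.of_eig (c := i) rfl (hs.H_smul_pr i v))
      · intro v
        have := congrArg (fun f : Module.End k V => f v) (commute_pr (k := k) (Commute.refl H) N i).eq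
        simpa using this
      · intro c hc hc'
        simp only [Set.mem_ofPred_eq, Set.mem_singleton_iff] at hc hc'
        omega
    rw [LinearMap.sub_apply, sub_eq_zero] at h2
    exact h2.symm
  · intro hv
    rw [← hv, ple, LinearMap.sum_apply]
    refine Submodule.sum_mem _ fun i hi => hF.cast (hF.mem_of_eig h hD (hs.H_smul_pr i v)) ?_
    have := (Finset.mem_filter.1 hi).2
    omega

theorem eq_range (l : ℤ) : F (r + l) = LinearMap.range (ple k H N l) := by
  ext v
  rw [hF.mem_iff h hD]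
  refine ⟨fun hv => ⟨v, hv⟩, ?_⟩
  rintro ⟨w, rfl⟩
  rw [← Module.End.mul_apply, (h.spec (k := k)).ple_mul_ple]

/-- Two Lefschetz filtrations lowered by the same `D` coincide. -/
theorem unique {F' : ℤ → Submodule k V} (hF' : Lef e r F')
    (hD' : ∀ a, ∀ v ∈ F' a, D v ∈ F' (a - 2)) : F = F' := by
  funext a
  obtain ⟨l, rfl⟩ : ∃ l, a = r + l := ⟨a - r, by ring⟩
  rw [hF.eq_range h hD, hF'.eq_range h hD']

end Lef

/-- Form for a ring acting through an algebra map: the filtration is the image of `ple`. -/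
theorem Lef.mem_iff_map [CharZero k] {R : Type*} [Ring R] [Algebra k R] (φ : R →ₐ[k] Module.End k V)
    {e D H : R} {N : ℕ} (h : Mor e D H N) {r : ℤ} {F : ℤ → Submodule k V} (hF : Lef (φ e) r F)
    (hD : ∀ a, ∀ v ∈ F a, φ D v ∈ F (a - 2)) (l : ℤ) (v : V) :
    v ∈ F (r + l) ↔ φ (ple k H N l) v = v := by
  rw [map_ple, hF.mem_iff (h.map φ) hD]

end P275JM
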