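import Mathlib

/-! Vectors killed by a product of factors `H - c`, `c` an integer in a set `S`. -/

namespace P275JM

variable {k V : Type*} [Field k] [AddCommGroup V] [Module k V]

/-- `v` is killed by a finite product of operators `H - c` with `c ∈ S`. -/
inductive Kil (H : Module.End k V) (S : Set ℤ) : V → Prop
  | zero : Kil H S 0
  | step (c : ℤ) (v : V) : c ∈ S → Kil H S (H v - (c : k) • v) → Kil H S v

namespace Kil

variable {H : Module.End k V} {S T : Set ℤ}

theorem mono (hST : S ⊆ T) {v : V} (h : Kil H S v) : Kil H T v := by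
  induction h with
  | zero => exact Kil.zero
  | step c v hc _ ih => exact Kil.step c v (hST hc) ih

/-- An operator of weight `s` moves `Kil S` to `Kil (S + s)`. -/
theorem map (A : Module.End k V) (s : ℤ) (hA : ∀ v, H (A v) = A (H v) + (s : k) • A v)
    (hST : ∀ c ∈ S, c + s ∈ T) {v : V} (h : Kil H S v) : Kil H T (A v) := by
  induction h with
  | zero => rw [map_zero]; exact Kil.zero
  | step c v hc _ ih =>
    refine Kil.step (c + s) _ (hST c hc) ?_
    have : H (A v) - ((c + s : ℤ) : k) • A v = A (H v - (c : k) • v) := by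
      rw [hA, map_sub, map_smul]; push_cast; module
    rw [this]; exact ih

theorem smul (a : k) {v : V} (h : Kil H S v) : Kil H S (a • v) := by
  have := h.map (T := S) (a • (1 : Module.End k V)) 0 (by intro v; simp) (by simp)
  simpa using this

theorem app {v : V} (h : Kil H S v) : Kil H S (H v) :=
  h.map (T := S) H 0 (by intro v; simp) (by simp)

theorem add {v w : V} (h : Kil H S v) (h' : Kil H S w) : Kil H S (v + w) := by
  induction h generalizing w with
  | zero => simpa using h'
  | step c v hc _ ih =>
    refine Kil.step c _ hc ?_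
    have h1 : Kil H S (H w - (c : k) • w) := by
      have := h'.map (T := S) (H - (c : k) • (1 : Module.End k V)) 0
        (by intro v; simp) (by simp)
      simpa using this
    have : H (v + w) - (c : k) • (v + w) = (H v - (c : k) • v) + (H w - (c : k) • w) := by
      rw [map_add]; module
    rw [this]; exact ih h1

theorem neg {v : V} (h : Kil H S v) : Kil H S (-v) := by
  simpa using h.smul (-1)

theorem sub {v w : V} (h : Kil H S v) (h' : Kil H S w) : Kil H S (v - w) := by
  rw [sub_eq_add_neg]; exact h.add h'.neg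

theorem of_eig {v : V} {c : ℤ} (hc : c ∈ S) (h : H v = (c : k) • v) : Kil H S v :=
  Kil.step c v hc (by rw [h, sub_self]; exact Kil.zero)

variable [CharZero k]

/-- `H - c` is injective modulo any `H`-stable subspace on `Kil T` when `c ∉ T`. -/
theorem mem_of_sub_mem (U : Submodule k V) (hU : ∀ v ∈ U, H v ∈ U) {c : ℤ} (hc : c ∉ T)
    {v : V} (h : Kil H T v) (hv : H v - (c : k) • v ∈ U) : v ∈ U := by
  induction h with
  | zero => exact U.zero_mem
  | step d v hd _ ih =>
    have hcd : ((c : k) - d) ≠ 0 := by
      rw [sub_ne_zero]; intro h; exact hc (by rw [Int.cast_injective h]; exact hd)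
    have h1 : H v - (d : k) • v ∈ U := by
      apply ih
      have : H (H v - (d : k) • v) - (c : k) • (H v - (d : k) • v) =
          H (H v - (c : k) • v) - (d : k) • (H v - (c : k) • v) := by
        simp only [map_sub, map_smul]; module
      rw [this]; exact U.sub_mem (hU _ hv) (U.smul_mem _ hv)
    have h2 : v = ((c : k) - d)⁻¹ • ((H v - (d : k) • v) - (H v - (c : k) • v)) := by
      have : (H v - (d : k) • v) - (H v - (c : k) • v) = ((c : k) - d) • v := by module
      rw [this, smul_smul, inv_mul_cancel₀ hcd, one_smul]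
    rw [h2]; exact U.smul_mem _ (U.sub_mem h1 hv)

theorem eq_zero (hST : ∀ c ∈ S, c ∉ T) {v : V} (h : Kil H S v) (h' : Kil H T v) : v = 0 := by
  induction h with
  | zero => rfl
  | step c v hc _ ih =>
    have h1 := ih (h'.app.sub (h'.smul _))
    have := h'.mem_of_sub_mem ⊥ (by intro v hv; simp_all) (hST c hc) (by simpa using h1)
    simpa using this

/-- `H - c` is onto on `Kil T` when `c ∉ T`. -/
theorem exists_inv {c : ℤ} (hc : c ∉ T) {u : V} (h : Kil H T u) :
    ∃ w, Kil H T w ∧ H w - (c : k) • w = u := by
  induction h with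
  | zero => exact ⟨0, Kil.zero, by simp⟩
  | step d v hd hv ih =>
    obtain ⟨w, hw, hw'⟩ := ih
    have hcd : ((d : k) - c) ≠ 0 := by
      rw [sub_ne_zero]; intro h; exact hc (by rw [← Int.cast_injective h]; exact hd)
    refine ⟨((d : k) - c)⁻¹ • (v - w), ((Kil.step d v hd hv).sub hw).smul _, ?_⟩
    have : H (v - w) - (c : k) • (v - w) = ((d : k) - c) • v := by
      have e : H (v - w) - (c : k) • (v - w) = (H v - (c : k) • v) - (H w - (c : k) • w) := by
        rw [map_sub]; module
      rw [e, hw']; module
    rw [map_smul, smul_comm, ← smul_sub, this, smul_smul, inv_mul_cancel₀ hcd, one_smul]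

/-- Splitting along a subset of the spectrum. -/
theorem split (T : Set ℤ) {v : V} (h : Kil H S v) :
    ∃ v₁ v₂, Kil H (S ∩ T) v₁ ∧ Kil H (S \ T) v₂ ∧ v = v₁ + v₂ := by
  induction h with
  | zero => exact ⟨0, 0, Kil.zero, Kil.zero, by simp⟩
  | step c v hc _ ih =>
    obtain ⟨u₁, u₂, h₁, h₂, e⟩ := ih
    by_cases hT : c ∈ T
    · obtain ⟨w, hw, hw'⟩ := h₂.exists_inv (c := c) (fun h => h.2 hT)
      refine ⟨v - w, w, Kil.step c _ ⟨hc, hT⟩ ?_, hw, by abel⟩
      have : H (v - w) - (c : k) • (v - w) = u₁ := by
        have e' : H (v - w) - (c : k) • (v - w) =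
            (H v - (c : k) • v) - (H w - (c : k) • w) := by rw [map_sub]; module
        rw [e', hw', e]; abel
      rw [this]; exact h₁
    · obtain ⟨w, hw, hw'⟩ := h₁.exists_inv (c := c) (fun h => hT h.2)
      refine ⟨w, v - w, hw, Kil.step c _ ⟨hc, hT⟩ ?_, by abel⟩
      have : H (v - w) - (c : k) • (v - w) = u₂ := by
        have e' : H (v - w) - (c : k) • (v - w) =
            (H v - (c : k) • v) - (H w - (c : k) • w) := by rw [map_sub]; module
        rw [e', hw', e]; abel
      rw [this]; exact h₂

end Kil

end P275JM
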