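import Mathlib

/-! Idempotents of bounded objects of the derived category of an abelian category split. -/

namespace P275JM

open CategoryTheory Category Limits Pretriangulated Preadditive

universe w v u

/-- The idempotent `p` splits. -/
def Splits {C : Type u} [Category.{v} C] {K : C} (p : K ⟶ K) : Prop :=
  ∃ (A : C) (i : A ⟶ K) (r : K ⟶ A), i ≫ r = 𝟙 A ∧ r ≫ i = p

theorem Splits.of_conj {C : Type u} [Category.{v} C] {K L : C} {p : K ⟶ K} {q : L ⟶ L}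
    (u : K ≅ L) (hu : p ≫ u.hom = u.hom ≫ q) (h : Splits q) : Splits p := by
  obtain ⟨A, i, r, h₁, h₂⟩ := h
  refine ⟨A, i ≫ u.inv, u.hom ≫ r, by simp [h₁], ?_⟩
  rw [assoc, ← assoc r, h₂, ← assoc, ← hu, assoc, u.hom_inv_id, comp_id]

section Tri

variable {C : Type u} [Category.{v} C] [HasZeroObject C] [HasShift C ℤ] [Preadditive C]
  [∀ n : ℤ, (shiftFunctor C n).Additive] [Pretriangulated C]

theorem splits_mid {X Y Z : C} {f : X ⟶ Y} {g : Y ⟶ Z} {h : Z ⟶ X⟦(1 : ℤ)⟧}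
    (hT : Triangle.mk f g h ∈ distTriang C) {p₁ : X ⟶ X} {p : Y ⟶ Y} {p₃ : Z ⟶ Z}
    (c₁ : f ≫ p = p₁ ≫ f) (c₂ : g ≫ p₃ = p ≫ g) (c₃ : h ≫ p₁⟦(1 : ℤ)⟧' = p₃ ≫ h)
    (hp : p ≫ p = p) (s₁ : Splits p₁) (s₃ : Splits p₃) : Splits p := by
  obtain ⟨A₁, i₁, r₁, a₁, b₁⟩ := s₁
  obtain ⟨A₃, i₃, r₃, a₃, b₃⟩ := s₃
  obtain ⟨A, f', g', hT'⟩ := distinguished_cocone_triangle₂ (i₃ ≫ h ≫ r₁⟦(1 : ℤ)⟧')
  obtain ⟨i, hi₁, hi₂⟩ := complete_distinguished_triangle_morphism₂ _ _ hT' hT i₁ i₃ (by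
    change (i₃ ≫ h ≫ r₁⟦(1 : ℤ)⟧') ≫ i₁⟦(1 : ℤ)⟧' = i₃ ≫ h
    rw [assoc, assoc, ← Functor.map_comp, b₁, c₃, ← b₃, ← assoc, ← assoc, a₃, id_comp])
  obtain ⟨r, hr₁, hr₂⟩ := complete_distinguished_triangle_morphism₂ _ _ hT hT' r₁ r₃ (by
    change h ≫ r₁⟦(1 : ℤ)⟧' = r₃ ≫ i₃ ≫ h ≫ r₁⟦(1 : ℤ)⟧'
    rw [← assoc r₃, b₃, ← assoc p₃, ← c₃, assoc, ← Functor.map_comp, ← b₁, assoc, a₁, comp_id])
  change A ⟶ Y at i
  change Y ⟶ A at r
  change f' ≫ i = i₁ ≫ f at hi₁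
  change g' ≫ i₃ = i ≫ g at hi₂
  change f ≫ r = r₁ ≫ f' at hr₁
  change g ≫ r₃ = r ≫ g' at hr₂
  have e₁ : f' ≫ i ≫ r = f' := by rw [← assoc, hi₁, assoc, hr₁, ← assoc, a₁, id_comp]
  have e₂ : (i ≫ r) ≫ g' = g' := by rw [assoc, ← hr₂, ← assoc, ← hi₂, assoc, a₃, comp_id]
  have hiso : IsIso (i ≫ r) := by
    have := isIso₂_of_isIso₁₃ (Triangle.homMk (Triangle.mk f' g' (i₃ ≫ h ≫ r₁⟦(1 : ℤ)⟧'))
      (Triangle.mk f' g' (i₃ ≫ h ≫ r₁⟦(1 : ℤ)⟧')) (𝟙 _) (i ≫ r) (𝟙 _)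
      (e₁.trans (id_comp _).symm) ((comp_id _).trans e₂.symm)
      (by rw [CategoryTheory.Functor.map_id, comp_id, id_comp])) hT' hT'
      (IsIso.id _) (IsIso.id _)
    exact this
  have e₁' : f' ≫ inv (i ≫ r) = f' := by rw [IsIso.comp_inv_eq, e₁]
  have e₂' : inv (i ≫ r) ≫ g' = g' := by rw [IsIso.inv_comp_eq, e₂]
  obtain ⟨q, hq⟩ : ∃ q : Y ⟶ Y, q = (r ≫ inv (i ≫ r)) ≫ i := ⟨_, rfl⟩
  have hir : i ≫ r ≫ inv (i ≫ r) = 𝟙 A := by rw [← assoc, IsIso.hom_inv_id]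
  have sq : Splits q := ⟨A, i, r ≫ inv (i ≫ r), hir, hq.symm⟩
  have hqq : q ≫ q = q := by
    rw [hq, assoc, ← assoc i, hir, id_comp]
  have q₁ : f ≫ q = p₁ ≫ f := by
    rw [hq, assoc, ← assoc f, hr₁, assoc, ← assoc f', e₁', hi₁, ← assoc, b₁]
  have q₂ : q ≫ g = g ≫ p₃ := by
    rw [hq, assoc, ← hi₂, assoc, ← assoc _ g', e₂', ← assoc, ← hr₂, assoc, b₃]
  obtain ⟨n, hn⟩ : ∃ n : Y ⟶ Y, n = p ≫ q + p ≫ q - p - q := ⟨_, rfl⟩
  have hp₁ : p₁ ≫ p₁ = p₁ := by rw [← b₁, assoc, ← assoc i₁, a₁, id_comp]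
  have hp₃ : p₃ ≫ p₃ = p₃ := by rw [← b₃, assoc, ← assoc i₃, a₃, id_comp]
  have n₁ : f ≫ n = 0 := by
    simp only [hn, comp_sub, comp_add, q₁, c₁, reassoc_of% c₁, reassoc_of% hp₁]
    abel
  have n₂ : n ≫ g = 0 := by
    simp only [hn, sub_comp, add_comp, assoc, q₂, ← c₂, ← reassoc_of% c₂, hp₃]
    abel
  have nn : n ≫ n = 0 := by
    obtain ⟨a, ha⟩ := Triangle.yoneda_exact₂ _ hT n n₁
    change Z ⟶ Y at a
    change n = g ≫ a at ha
    nth_rewrite 2 [ha]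
    rw [← assoc, n₂, zero_comp]
  refine Splits.of_conj (q := q) ⟨𝟙 Y + n, 𝟙 Y - n, by simp [nn], by simp [nn]⟩ ?_ sq
  simp only [hn, comp_add, comp_sub, add_comp, sub_comp, comp_id, id_comp, assoc, hp, hqq,
    reassoc_of% hp]
  abel

/-- The split triangle of a decomposition `K = A ⊕ B` is distinguished. -/
theorem split_distinguished {K A B : C} {i : A ⟶ K} {r : K ⟶ A} {j : B ⟶ K} {s : K ⟶ B}
    (hi : i ≫ r = 𝟙 A) (hj : j ≫ s = 𝟙 B) (h : r ≫ i + s ≫ j = 𝟙 K) :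
    Triangle.mk i s 0 ∈ distTriang C := by
  have h1 : i ≫ s = 0 := by
    have := congrArg (fun t => i ≫ t ≫ s) h
    simp only [add_comp, comp_add, assoc, hj, comp_id, id_comp, reassoc_of% hi] at this
    simpa using this
  have h2 : j ≫ r = 0 := by
    have := congrArg (fun t => j ≫ t ≫ r) h
    simp only [add_comp, comp_add, assoc, hi, comp_id, id_comp, reassoc_of% hj] at this
    simpa using this
  let e : K ≅ A ⊞ B := ⟨biprod.lift r s, biprod.desc i j, by simpa using h, by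
    ext <;> simp [hi, hj, h1, h2]⟩
  refine isomorphic_distinguished _ (binaryBiproductTriangle_distinguished A B) _
    (Triangle.isoMk _ _ (Iso.refl A) e (Iso.refl B) ?_ ?_ ?_)
  · change i ≫ biprod.lift r s = 𝟙 A ≫ biprod.inl
    ext <;> simp [hi, h1]
  · change s ≫ 𝟙 B = biprod.lift r s ≫ biprod.snd
    simp
  · change (0 : B ⟶ A⟦(1 : ℤ)⟧) ≫ (𝟙 A)⟦(1 : ℤ)⟧' = 𝟙 B ≫ (0 : B ⟶ A⟦(1 : ℤ)⟧)
    simp

end Tri

variable {C : Type u} [Category.{v} C] [Abelian C] [HasDerivedCategory.{w} C]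

open DerivedCategory DerivedCategory.TStructure

theorem splits_of_amp (n : ℕ) (a : ℤ) (K : DerivedCategory C) [K.IsGE a] [K.IsLE (a + n - 1)]
    (p : K ⟶ K) (hp : p ≫ p = p) : Splits p := by
  induction n generalizing K with
  | zero =>
    have hK : IsZero K := t.isZero K (a + (0 : ℕ) - 1) a (by simp)
    exact ⟨K, 𝟙 K, 𝟙 K, by simp, hK.eq_of_src _ _⟩
  | succ n ih =>
    have hle : K.IsLE (a + n) := t.isLE_of_le K (a + (n + 1 : ℕ) - 1) _ (by push_cast; omega)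
    let φ := (t.triangleLTGE (a + n)).map p
    refine splits_mid (t.triangleLTGE_distinguished (a + n) K) φ.comm₁ φ.comm₂ φ.comm₃ hp ?_ ?_
    · exact ih ((t.truncLT (a + n)).obj K) ((t.truncLT (a + n)).map p)
        (by rw [← Functor.map_comp, hp])
    · change Splits ((t.truncGE (a + n)).map p)
      have hq : (t.truncGE (a + n)).map p ≫ (t.truncGE (a + n)).map p =
          (t.truncGE (a + n)).map p := by rw [← Functor.map_comp, hp]
      generalize (t.truncGE (a + n)).map p = q at hq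
      obtain ⟨Y, ⟨e⟩⟩ := exists_iso_singleFunctor_obj_of_isGE_of_isLE
        ((t.truncGE (a + n)).obj K) (a + n)
      obtain ⟨q', hq'⟩ := (singleFunctor C (a + n)).map_surjective (e.inv ≫ q ≫ e.hom)
      have hq'' : q' ≫ q' = q' := (singleFunctor C (a + n)).map_injective (by
        simp [hq', reassoc_of% hq])
      obtain ⟨A, i, r, h₁, h₂⟩ := IsIdempotentComplete.idempotents_split Y q' hq''
      refine Splits.of_conj (q := (singleFunctor C (a + n)).map q') e (by simp [hq']) ?_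
      exact ⟨_, (singleFunctor C (a + n)).map i, (singleFunctor C (a + n)).map r,
        by rw [← Functor.map_comp, h₁, CategoryTheory.Functor.map_id], by rw [← Functor.map_comp, h₂]⟩

/-- Idempotents of a bounded object of the derived category split. -/
theorem splits_of_bounded (K : DerivedCategory C) (a b : ℤ) [K.IsGE a] [K.IsLE b]
    (p : K ⟶ K) (hp : p ≫ p = p) : Splits p := by
  have : K.IsLE (a + ((b - a + 1).toNat : ℕ) - 1) := t.isLE_of_le K b _ (by omega)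
  exact splits_of_amp (b - a + 1).toNat a K p hp

/-- Decomposition of a bounded object along an idempotent, with its split triangle. -/
theorem exists_split (K : DerivedCategory C) (a b : ℤ) [K.IsGE a] [K.IsLE b]
    (p : K ⟶ K) (hp : p ≫ p = p) :
    ∃ (A B : DerivedCategory C) (i : A ⟶ K) (r : K ⟶ A) (j : B ⟶ K) (s : K ⟶ B),
      i ≫ r = 𝟙 A ∧ j ≫ s = 𝟙 B ∧ r ≫ i = p ∧ s ≫ j = 𝟙 K - p ∧
      Triangle.mk i s 0 ∈ distTriang (DerivedCategory C) := by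
  obtain ⟨A, i, r, h₁, h₂⟩ := splits_of_bounded K a b p hp
  obtain ⟨B, j, s, h₃, h₄⟩ := splits_of_bounded K a b (𝟙 K - p) (by simp [hp])
  exact ⟨A, B, i, r, j, s, h₁, h₃, h₂, h₄, split_distinguished h₁ h₃ (by rw [h₂, h₄]; abel)⟩

end P275JM
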